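import Vale.Agent.P011UGA.IF
import Vale.Agent.P011US.Sub
import Vale.Agent.P011UC.Tr
import Vale.Agent.P011UB.Iw
import Mathlib.FieldTheory.Galois.Infinite

/-!
Restriction of a normalised form to a stable set of nodes and to an open subgroup.
-/

set_option autoImplicit false
set_option linter.all false

namespace Vale.Agent.P011UGR1

open Matrix Vale.Agent.P011L Vale.Agent.P183CH Vale.Agent.P183CH.Chev Vale.Agent.P011U
  Vale.Agent.P011UGA

theorem PSimple.surj {G H : Type} [Group G] [Group H] (f : G →* H) (hf : Function.Surjective f)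
    (h : PSimple G) : PSimple H := fun N hN hc => by
  have := h (N.comap f) (hN.comap f) fun e => hc fun x hx => by
    obtain ⟨x, rfl⟩ := hf x
    refine Subgroup.mem_center_iff.2 fun y => ?_
    obtain ⟨y, rfl⟩ := hf y
    rw [← map_mul, ← map_mul, Subgroup.mem_center_iff.1 (e hx) y]
  refine eq_top_iff.2 fun x _ => ?_
  obtain ⟨x, rfl⟩ := hf x
  exact this.ge (Subgroup.mem_top x)

section
variable {R : RS} {K G : Type} [Field K] [Group G] {Γ : RG R K G} (hΓ : Γ.Ok) (hR : R.Ok)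
include hΓ hR

theorem comm_rep {n : G} {w : R.Aut} (h : Γ.Rep n w) {γ δ : R.Q} (hγ : γ ∈ R.Φ) (hδ : δ ∈ R.Φ)
    (e : ∀ t u, Commute (Γ.x γ t) (Γ.x δ u)) (t u : K) :
    Commute (Γ.x (w γ) t) (Γ.x (w δ) u) := by
  obtain ⟨a, ha⟩ := hΓ.rep_conj hR h hγ
  obtain ⟨b, hb⟩ := hΓ.rep_conj hR h hδ
  rw [← Units.mul_inv_cancel_left a t, ← Units.mul_inv_cancel_left b u, ← (ha _).1, ← (hb _).1]
  exact (e _ _).conj n

theorem comm_LJ {J J' : Set (Fin R.r)} (h : ∀ a ∈ J, ∀ b ∈ J', R.A a b = 0) {g g' : G}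
    (hg : g ∈ LJ Γ J) (hg' : g' ∈ LJ Γ J') : Commute g g' := by
  rw [LJ_eq hR hΓ] at hg hg'
  refine ((Subgroup.closure_le (Subgroup.centralizer {g'})).2 ?_ hg g' rfl).symm
  rintro g ⟨i, hi, t, hg⟩ _ rfl
  refine ((Subgroup.closure_le (Subgroup.centralizer {g})).2 ?_ hg' g rfl).symm
  rintro g' ⟨j, hj, u, hg'⟩ _ rfl
  have h := h i hi j hj
  have h' := hR.A_zero_comm.1 h
  have ne : i ≠ j := fun e => by rw [e, hR.diag] at h; omega
  have k : ∀ t u, Commute (Γ.x (R.α i) t) (Γ.x (R.α j) u) := fun t u => by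
    have := hΓ.comm _ (hR.simple i) _ (hR.simple j) (RS.α_nonneg i) (RS.α_nonneg j) t u
    refine commutatorElement_eq_one_iff_commute.1 (Subgroup.mem_bot.1 ((RG.X_le ?_ : _ ≤ ⊥) this))
    rintro _ ⟨a, b, ha, hb, rfl⟩ m
    rcases (hR.sign _ (hR.map_mem (RS.sE_mem_W i) m)).2 with e | e
    · have := e i
      rw [hR.sE_eq, RS.pr_add, RS.pr_nsmul, RS.pr_nsmul] at this
      simp [RS.pr_α, hR.diag, h', RS.α_self, RS.α_ne ne] at this
      omega
    · have := e j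
      simp [hR.sE_eq, RS.α_self, RS.α_ne ne.symm] at this
      omega
  have e1 : R.sE j (R.α i) = R.α i := by rw [hR.sE_eq, RS.pr_α, h, zero_smul, sub_zero]
  have e2 : R.sE i (R.α j) = R.α j := by rw [hR.sE_eq, RS.pr_α, h', zero_smul, sub_zero]
  have k1 := comm_rep hΓ hR (RG.rep_n j) (hR.simple i) (hR.simple j) k
  have k2 := comm_rep hΓ hR (RG.rep_n i) (hR.simple i) (hR.simple j) k
  rw [e1, hR.sE_α] at k1
  have k3 := comm_rep hΓ hR (RG.rep_n i) (hR.simple i) (hR.neg_mem (hR.simple j)) k1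
  rw [map_neg, e2, hR.sE_α] at k3
  rw [e2, hR.sE_α] at k2
  rcases hg with rfl | rfl <;> rcases hg' with rfl | rfl
  exacts [k t u, k1 t u, k2 t u, k3 t u]

theorem LJ_split {J J' : Set (Fin R.r)} (h : ∀ a ∈ J, ∀ b ∈ J', R.A a b = 0) {g : G}
    (hg : g ∈ LJ Γ (J ∪ J')) : ∃ a ∈ LJ Γ J, ∃ b ∈ LJ Γ J', g = a * b := by
  rw [LJ_eq hR hΓ] at hg
  induction hg using Subgroup.closure_induction with
  | mem x hx =>
    obtain ⟨j, hj | hj, hx⟩ := hx
    · exact ⟨x, (LJ_eq hR hΓ J).ge (Subgroup.subset_closure ⟨j, hj, hx⟩), 1, one_mem _, by simp⟩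
    · exact ⟨1, one_mem _, x, (LJ_eq hR hΓ J').ge (Subgroup.subset_closure ⟨j, hj, hx⟩), by simp⟩
  | one => exact ⟨1, one_mem _, 1, one_mem _, by simp⟩
  | mul x y _ _ hx hy =>
    obtain ⟨a, ha, b, hb, rfl⟩ := hx
    obtain ⟨a', ha', b', hb', rfl⟩ := hy
    exact ⟨_, mul_mem ha ha', _, mul_mem hb hb', (comm_LJ hΓ hR h ha' hb).symm.mul_mul_mul_comm a b'⟩
  | inv x _ hx =>
    obtain ⟨a, ha, b, hb, rfl⟩ := hx
    exact ⟨_, inv_mem ha, _, inv_mem hb, by rw [(comm_LJ hΓ hR h ha hb).eq, _root_.mul_inv_rev]⟩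

omit hΓ hR in
theorem LJ_mono {J J' : Set (Fin R.r)} (h : J ⊆ J') : LJ Γ J ≤ LJ Γ J' :=
  RG.X_mono fun _ e _ i hi => e i fun c => hi (h c)

end

variable {k K : Type} [Field k] [Field K] [Algebra k K] {D : Chev} {m : ℕ} {ι : Fin m ↪ Fin D.r}
  (h : LieAlgebra.IsSimple ℂ (sL D ι))

variable (K) in
/-- the inclusion of the group of the subdatum -/
noncomputable def inc : (subD D ι h).grp K →* D.grp K :=
  Subgroup.inclusion ((subD_grp h K).le.trans (Subgroup.map_subtype_le _))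

theorem inc_inj : Function.Injective (inc K h) := Subgroup.inclusion_injective _

theorem inc_mem (g : (subD D ι h).grp K) : inc K h g ∈ LJ (GG D K) (Set.range ι) := by
  obtain ⟨x, hx, e⟩ := (subD_grp h K).le g.2
  exact (Subtype.ext e : x = inc K h g) ▸ hx

theorem inc_surj {g : D.grp K} (hg : g ∈ LJ (GG D K) (Set.range ι)) : ∃ x, inc K h x = g :=
  ⟨⟨g.1, (subD_grp h K).ge ⟨g, hg, rfl⟩⟩, rfl⟩

theorem inc_e (a : Fin m) (u : K) : inc K h ((GG (subD D ι h) K).x ((subD D ι h).R.α a) u) =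
    (GG D K).x (D.R.α (ι a)) u :=
  Subtype.ext ((GG_e (D := subD D ι h) a u).trans (GG_e (ι a) u).symm)

theorem inc_f (a : Fin m) (u : K) : inc K h ((GG (subD D ι h) K).x (-(subD D ι h).R.α a) u) =
    (GG D K).x (-D.R.α (ι a)) u :=
  Subtype.ext ((GG_f (D := subD D ι h) a u).trans (GG_f (ι a) u).symm)

include h in
theorem cen_T {g : D.grp K} (hg : g ∈ LJ (GG D K) (Set.range ι))
    (hc : ∀ x ∈ LJ (GG D K) (Set.range ι), Commute g x) :
    ∃ s, (∀ a ∉ Set.range ι, s a = 1) ∧ hT D K s = g := by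
  obtain ⟨g, rfl⟩ := inc_surj h hg
  have k : ∀ u, g * u * g⁻¹ = u := fun u => inc_inj h (by
    rw [map_mul, map_mul, map_inv, (hc _ (inc_mem h u)).eq, mul_inv_cancel_right])
  have := P011UB.mem_T_of_nm GG_ok (R_ok _) (g := g) (fun u hu => (k u).symm ▸ hu)
    fun u hu => (k u).symm ▸ hu
  clear k hc hg
  induction this using Subgroup.closure_induction with
  | mem x hx =>
    obtain ⟨a, t, rfl⟩ := hx
    exact ⟨Pi.mulSingle (ι a) t, fun b hb => Pi.mulSingle_eq_of_ne (fun e => hb ⟨a, e.symm⟩) _,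
      GG_ok.hT_single _ _⟩
  | one => exact ⟨1, fun _ _ => rfl, by simp⟩
  | mul x y _ _ hx hy =>
    obtain ⟨s, h1, h2⟩ := hx
    obtain ⟨s', h1', h2'⟩ := hy
    exact ⟨s * s', fun a ha => by simp [h1 a ha, h1' a ha], by rw [map_mul, map_mul, h2, h2']⟩
  | inv x _ hx =>
    obtain ⟨s, h1, h2⟩ := hx
    exact ⟨s⁻¹, fun a ha => by simp [h1 a ha], by rw [map_inv, map_inv, h2]⟩

variable {T : Tw k (D.grp K)} {ε : (K ≃ₐ[k] K) →* ℤˣ} {π : (K ≃ₐ[k] K) →* Equiv.Perm (Fin D.R.r)}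
  {d : Fin D.R.r → Kˣ}

theorem a_LJ (o : Opw T ε π d) (σ : K ≃ₐ[k] K) {J J' : Set (Fin D.R.r)}
    (hJ : ∀ a ∈ J, π σ a ∈ J') {g : D.grp K} (hg : g ∈ LJ (GG D K) J) :
    T.a σ g ∈ LJ (GG D K) J' := by
  rw [LJ_eq (R_ok D) GG_ok] at hg ⊢
  refine Subgroup.mem_comap.1 ((Subgroup.closure_le (Subgroup.comap (T.a σ).toMonoidHom _)).2 ?_ hg)
  rintro _ ⟨j, hj, t, rfl | rfl⟩ <;> rcases Int.units_eq_one_or (ε σ) with e | e
  · exact Subgroup.subset_closure ⟨_, hJ j hj, _, Or.inl (o.pos σ j t e).1⟩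
  · exact Subgroup.subset_closure ⟨_, hJ j hj, _, Or.inr (o.neg σ j t e).1⟩
  · exact Subgroup.subset_closure ⟨_, hJ j hj, _, Or.inr (o.pos σ j t e).2⟩
  · exact Subgroup.subset_closure ⟨_, hJ j hj, _, Or.inl (o.neg σ j t e).2⟩

/-- restriction to a stable connected set of nodes -/
theorem exists_sub (o : Opw T ε π d) (hJ : ∀ σ, ∀ a ∈ Set.range ι, π σ a ∈ Set.range ι) :
    ∃ (T' : Tw k ((subD D ι h).grp K)) (π' : (K ≃ₐ[k] K) →* Equiv.Perm (Fin m)),
      Opw T' ε π' (d ∘ ι) ∧ (∀ σ a, ι (π' σ a) = π σ (ι a)) ∧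
      (∀ σ g, inc K h (T'.a σ g) = T.a σ (inc K h g)) ∧
      (PSimple T'.fix → PSimple (FJ T (Set.range ι))) := by
  choose f hf using fun σ a => hJ σ _ ⟨a, rfl⟩
  choose c hc using fun σ g => inc_surj h (a_LJ o σ (hJ σ) (inc_mem h g))
  let π' : (K ≃ₐ[k] K) →* Equiv.Perm (Fin m) := MonoidHom.toHomPerm
    { toFun := f
      map_one' := funext fun a => ι.injective (by rw [hf, map_one]; rfl)
      map_mul' := fun σ τ => funext fun a => ι.injective (by
        rw [hf, map_mul, Equiv.Perm.mul_apply, ← hf, ← hf]; rfl) }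
  let T' : Tw k ((subD D ι h).grp K) :=
    { a :=
        { toFun := fun σ =>
            { toFun := c σ
              invFun := c σ⁻¹
              left_inv := fun g => inc_inj h (by rw [hc, hc, map_inv, MulAut.inv_apply_self])
              right_inv := fun g => inc_inj h (by rw [hc, hc, map_inv, MulAut.apply_inv_self])
              map_mul' := fun g g' => inc_inj h (by rw [map_mul, hc, hc, hc, map_mul, map_mul]) }
          map_one' := MulEquiv.ext fun g => inc_inj h ((hc 1 g).trans (by rw [map_one]; rfl))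
          map_mul' := fun σ τ => MulEquiv.ext fun g => inc_inj h ((hc _ g).trans (by
            rw [map_mul, MulAut.mul_apply, ← hc, ← hc]; rfl)) }
      pol := fun σ a b => (T.pol σ a b).imp fun p hp g =>
        (congrArg (fun x : D.grp K => x.1.1 a b) (hc σ g)).trans (hp _)
      cont := T.cont.imp fun F hF => ⟨hF.1, fun σ e g =>
        (congrArg (fun x : D.grp K => x.1.1) (hc σ g)).trans (hF.2 σ e _)⟩ }
  have h1 : ∀ σ a, ι (π' σ a) = π σ (ι a) := hf
  have h2 : ∀ σ g, inc K h (T'.a σ g) = T.a σ (inc K h g) := hc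
  refine ⟨T', π', ⟨o.near.imp fun F hF => ⟨hF.1, fun τ e => ⟨(hF.2 τ e).1, Equiv.ext fun a =>
    ι.injective ((h1 τ a).trans (by rw [(hF.2 τ e).2]; rfl))⟩⟩, fun σ a b => ?_, fun σ _ a => ?_,
    fun σ a u e => ⟨inc_inj h ?_, inc_inj h ?_⟩, fun σ a u e => ⟨inc_inj h ?_, inc_inj h ?_⟩⟩, h1, h2,
    PSimple.surj (((inc K h).comp T'.fix.subtype).codRestrict _ fun g =>
      ⟨fun σ => (h2 σ g).symm.trans (congrArg _ (g.2 σ)), inc_mem h _⟩) fun g => ?_⟩
  · exact (congrArg₂ D.R.A (h1 σ a) (h1 σ b)).trans (o.dg σ _ _)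
  · exact (congrArg (fun j => (d j : K)) (h1 σ a)).trans (o.eqt σ trivial _)
  · exact (h2 σ _).trans ((congrArg _ (inc_e h a u)).trans ((o.pos σ _ u e).1.trans
      (h1 σ a ▸ (inc_e h (π' σ a) _).symm)))
  · exact (h2 σ _).trans ((congrArg _ (inc_f h a u)).trans ((o.pos σ _ u e).2.trans
      (h1 σ a ▸ (inc_f h (π' σ a) _).symm)))
  · exact (h2 σ _).trans ((congrArg _ (inc_e h a u)).trans ((o.neg σ _ u e).1.trans
      (h1 σ a ▸ (inc_f h (π' σ a) _).symm)))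
  · exact (h2 σ _).trans ((congrArg _ (inc_f h a u)).trans ((o.neg σ _ u e).2.trans
      (h1 σ a ▸ (inc_e h (π' σ a) _).symm)))
  · obtain ⟨x, hx⟩ := inc_surj h g.2.2
    exact ⟨⟨x, fun σ => inc_inj h (by rw [h2, hx, g.2.1 σ])⟩, Subtype.ext hx⟩

/-- restriction of automorphisms -/
def rs (L : IntermediateField k K) : (K ≃ₐ[L] K) →* (K ≃ₐ[k] K) where
  toFun σ := σ.restrictScalars k
  map_one' := rfl
  map_mul' _ _ := rfl

theorem near_res [Algebra.IsAlgebraic k K] {P : (K ≃ₐ[k] K) → Prop} (h : Near k P)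
    (L : IntermediateField k K) : Near L fun τ => P (rs L τ) := by
  obtain ⟨F, h1, h2⟩ := h
  let b := Module.finBasis k F
  refine ⟨.adjoin L (Set.range fun i => (b i).1), IntermediateField.finiteDimensional_adjoin
    fun x _ => (Algebra.IsAlgebraic.isAlgebraic x).isIntegral, fun σ e => h2 _ fun x hx => ?_⟩
  have := congrArg Subtype.val (b.sum_repr ⟨x, hx⟩)
  simp only [IntermediateField.coe_sum, IntermediateField.coe_smul] at this
  rw [← this, map_sum]
  exact Finset.sum_congr rfl fun i _ => by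
    rw [map_smul]
    exact congrArg _ (e _ (IntermediateField.subset_adjoin _ _ ⟨i, rfl⟩))

theorem opw_res [Algebra.IsAlgebraic k K] (o : Opw T ε π d) (L : IntermediateField k K) :
    Opw (P011UC.res T L) (ε.comp (rs L)) (π.comp (rs L)) d :=
  ⟨near_res o.near L, fun σ => o.dg _, fun σ _ => o.eqt (rs L σ) trivial,
    fun σ => o.pos (rs L σ), fun σ => o.neg (rs L σ)⟩

/-- the fixed field of an open subgroup -/
theorem exists_field [IsGalois k K] {Γ : Subgroup (K ≃ₐ[k] K)} (h : Near k (· ∈ Γ)) :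
    ∃ L : IntermediateField k K, FiniteDimensional k L ∧ ∀ σ, σ ∈ Γ ↔ ∃ τ, rs L τ = σ := by
  obtain ⟨F, _, hF⟩ := h
  have h1 : IsOpen (Γ : Set (K ≃ₐ[k] K)) := Subgroup.isOpen_mono (H₁ := F.fixingSubgroup)
    (fun σ s => hF σ fun x hx => s ⟨x, hx⟩) F.fixingSubgroup_isOpen
  have h2 : (IntermediateField.fixedField Γ).fixingSubgroup = Γ :=
    InfiniteGalois.fixingSubgroup_fixedField ⟨Γ, Γ.isClosed_of_isOpen h1⟩
  refine ⟨IntermediateField.fixedField Γ, (InfiniteGalois.isOpen_iff_finite _).1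
    (by rw [h2]; exact h1), fun σ => ⟨fun e => ⟨AlgEquiv.ofRingEquiv (f := σ.toRingEquiv)
      fun x => x.2 ⟨σ, e⟩, rfl⟩, ?_⟩⟩
  rintro ⟨τ, rfl⟩
  exact h2.le fun x => τ.commutes x

end Vale.Agent.P011UGR1
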