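import Vale.Agent.P011UGR1.Sub
import Vale.Agent.P011UD.Aut
import Vale.Agent.P011U.Top

/-!
The groups of relative rank two.
-/

set_option autoImplicit false
set_option linter.all false

namespace Vale.Agent.P011UGR1

open Matrix Vale.Agent.P011L Vale.Agent.P183CH Vale.Agent.P183CH.Chev Vale.Agent.P011U
  Vale.Agent.P011UGA Vale.Agent.P011UD

theorem simply {R : RS} (hR : R.Ok) {p : Equiv.Perm (Fin R.r)} (hπ : Dg R p) (k : p ≠ 1)
    {i j : Fin R.r} (hij : i ≠ j) (h : R.A i j ≠ 0) : R.A i j = -1 := by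
  rcases cls R hR with ⟨n, e, t⟩ | ⟨n, e, l, t⟩ | ⟨n, e, l, t⟩ | ⟨n, e, l, t⟩ | ⟨e, t⟩ | ⟨e, t⟩ |
    ⟨e, t⟩ | ⟨e, t⟩ | ⟨e, t⟩
  · rw [t] at h ⊢
    have := e.injective.ne hij
    simp only [CartanMatrix.A, of_apply] at h ⊢
    split_ifs at h ⊢ <;> simp_all
  · exact (k (pc_one (autB l (t.au hπ)))).elim
  · exact (k (pc_one (autC (by omega) (t.au hπ)))).elim
  · rw [t] at h ⊢
    have := e.injective.ne hij
    simp only [CartanMatrix.D, of_apply] at h ⊢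
    split_ifs at h ⊢ <;> simp_all
  · rw [t] at h ⊢
    have := e.injective.ne hij
    generalize e i = a, e j = b at h this
    fin_cases a <;> fin_cases b <;> first | rfl | exact absurd rfl h | exact absurd rfl this
  · exact (k (pc_one (autE7 (t.au hπ)))).elim
  · exact (k (pc_one (autE8 (t.au hπ)))).elim
  · exact (k (pc_one (autF (t.au hπ)))).elim
  · exact (k (pc_one (autG (t.au hπ)))).elim

variable {D : Chev} {i j l : Fin D.r}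

/-- two nodes -/
def em2 (h : i ≠ j) : Fin 2 ↪ Fin D.r :=
  ⟨![i, j], fun a b e => by fin_cases a <;> fin_cases b <;> simp_all⟩

/-- three nodes -/
def em3 (h : j ≠ i) (h' : i ≠ l) (h'' : j ≠ l) : Fin 3 ↪ Fin D.r :=
  ⟨![j, i, l], fun a b e => by fin_cases a <;> fin_cases b <;> simp_all⟩

theorem range2 (h : i ≠ j) : Set.range (em2 h) = {i, j} := by
  show Set.range ![i, j] = _
  ext a
  simp [Fin.exists_fin_two, eq_comm]
  tauto

theorem range3 (h : j ≠ i) (h' : i ≠ l) (h'' : j ≠ l) : Set.range (em3 h h' h'') = {j, i, l} := by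
  show Set.range ![j, i, l] = _
  ext a
  simp [Fin.exists_fin_succ, eq_comm]
  tauto

theorem simple2 (h : i ≠ j) (e : D.A i j ≠ 0) : LieAlgebra.IsSimple ℂ (sL D (em2 h)) :=
  sub_simple two_pos fun P a b ha hP => by
    have e' : D.A j i ≠ 0 := mt (R_ok D).A_zero_comm.1 e
    fin_cases a <;> fin_cases b
    exacts [ha, hP 0 1 ha e', hP 1 0 ha e, ha]

theorem simple3 (h : j ≠ i) (h' : i ≠ l) (h'' : j ≠ l) (e : D.A i j ≠ 0) (e' : D.A i l ≠ 0) :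
    LieAlgebra.IsSimple ℂ (sL D (em3 h h' h'')) :=
  sub_simple three_pos fun P a b ha hP => by
    have h1 : P 1 := by
      fin_cases a
      exacts [hP 0 1 ha e, ha, hP 2 1 ha e']
    fin_cases b
    exacts [hP 1 0 h1 (mt (R_ok D).A_zero_comm.1 e), h1, hP 1 2 h1 (mt (R_ok D).A_zero_comm.1 e')]

variable {k K : Type} [Field k] [Field K] [Algebra k K] [IsSepClosure k K] {T : Tw k (D.grp K)}
  {ε : (K ≃ₐ[k] K) →* ℤˣ} {π : (K ≃ₐ[k] K) →* Equiv.Perm (Fin D.R.r)} {d : Fin D.R.r → Kˣ}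

theorem two (a2 : BA2) (b2 : BB2) (g2 : BG2) (hk : Glob k) (hD : SC D) (o : Opw T ε π d)
    (h : i ≠ j) (e : D.A i j ≠ 0) (hi : ∀ σ, π σ i = i) (hj : ∀ σ, π σ j = j)
    (hε : (∃ θ, ε θ = -1) ∨ (D.A i j = -1 ∧ D.A j i = -1)) : PSimple (FJ T {i, j}) := by
  have hι : ∀ σ a, π σ (em2 h a) = em2 h a := fun σ a => by
    fin_cases a
    exacts [hi σ, hj σ]
  obtain ⟨T', π', o', h1, -, h2⟩ := exists_sub (simple2 h e) o (by
    rintro σ _ ⟨a, rfl⟩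
    exact ⟨a, (hι σ a).symm⟩)
  have h3 : π' = 1 := MonoidHom.ext fun σ => Equiv.ext fun a =>
    (em2 h).injective ((h1 σ a).trans (hι σ a))
  have hD' := subD_sc (simple2 h e) hD
  refine range2 h ▸ h2 ?_
  rcases hε with hε | hε
  swap
  · refine a2 k K _ hk hD' T' _ _ _ o' ⟨Equiv.refl _, fun a b => ?_⟩ h3
    fin_cases a <;> fin_cases b
    exacts [diag i, hε.1, hε.2, diag j]
  have c : ∀ {n}, Fin (subD D _ (simple2 h e)).R.r ≃ Fin n → 2 = n := fun e =>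
    Fin.equiv_iff_eq.1 ⟨e⟩
  rcases cls _ (R_ok (subD D _ (simple2 h e))) with ⟨n, e, t⟩ | ⟨n, e, l, t⟩ | ⟨n, e, l, t⟩ |
    ⟨n, e, l, t⟩ | ⟨e, t⟩ | ⟨e, t⟩ | ⟨e, t⟩ | ⟨e, t⟩ | ⟨e, t⟩
  · obtain rfl := c e
    exact a2 k K _ hk hD' T' _ _ _ o' ⟨e, t⟩ h3
  · obtain rfl := c e
    exact b2 k K _ hk hD' T' _ _ _ o' ⟨e, t⟩ hε
  · have := c e
    omega
  · have := c e
    omega
  · exact absurd (c e) (by decide)
  · exact absurd (c e) (by decide)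
  · exact absurd (c e) (by decide)
  · exact absurd (c e) (by decide)
  · exact g2 k K _ hk hD' T' _ _ _ o' ⟨e, t⟩ hε

theorem three (a3 : BA3) (hk : Glob k) (hD : SC D) (o : Opw T ε π d) (ho : Ort D.R π)
    {σ₀ : K ≃ₐ[k] K} (hp : ∀ σ, π σ = 1 ∨ π σ = π σ₀) (h2 : ∀ a, π σ₀ (π σ₀ a) = a)
    (h : i ≠ j) (e : D.A i j ≠ 0) (hi : π σ₀ i = i) (hj : π σ₀ j ≠ j) :
    PSimple (FJ T {j, i, π σ₀ j}) := by
  have hn : π σ₀ ≠ 1 := fun c => hj (by rw [c]; rfl)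
  have h' : i ≠ π σ₀ j := fun c => h ((π σ₀).injective (hi.trans c))
  have e1 : D.A i (π σ₀ j) = D.A i j := by
    have := o.dg σ₀ i j
    rwa [hi] at this
  have e2 : D.A (π σ₀ j) i = D.A j i := by
    have := o.dg σ₀ j i
    rwa [hi] at this
  have e3 : D.A i j = -1 := simply (R_ok D) (o.dg σ₀) hn h e
  have e4 : D.A j i = -1 := simply (R_ok D) (o.dg σ₀) hn h.symm (mt (R_ok D).A_zero_comm.1 e)
  have e5 : D.A (π σ₀ j) j = 0 := ho σ₀ j hj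
  have s := simple3 h.symm h' hj.symm e (e1 ▸ e)
  obtain ⟨T', π', o', -, -, h3⟩ := exists_sub s o (by
    rw [range3]
    intro σ a ha
    rcases hp σ with c | c <;> rw [c]
    · exact ha
    · rcases ha with rfl | rfl | rfl <;> simp [hi, h2])
  refine range3 h.symm h' hj.symm ▸ h3 (a3 k K _ hk (subD_sc s hD) T' _ _ _ o'
    ⟨Equiv.refl _, fun a b => ?_⟩)
  fin_cases a <;> fin_cases b
  exacts [diag j, e4, (R_ok D).A_zero_comm.1 e5, e3, diag i, e1.trans e3, e5, e2.trans e4, diag _]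

theorem inf_triv (hD : SC D) {i' j' : Fin D.r} (h : i ≠ j) (e : D.A i j ≠ 0) (h' : i' ≠ j')
    (e' : D.A i' j' ≠ 0) (ho : ∀ a ∈ ({i, j} : Set _), ∀ b ∈ ({i', j'} : Set _), D.R.A a b = 0)
    {g : D.grp K} (h1 : g ∈ LJ (GG D K) {i, j}) (h2 : g ∈ LJ (GG D K) {i', j'}) : g = 1 := by
  obtain ⟨s, a1, a2⟩ := cen_T (simple2 h e) (range2 h ▸ h1) fun x hx =>
    (comm_LJ GG_ok (R_ok D) ho (range2 h ▸ hx) h2).symm
  obtain ⟨s', b1, b2⟩ := cen_T (simple2 h' e') (range2 h' ▸ h2) fun x hx =>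
    comm_LJ GG_ok (R_ok D) ho h1 (range2 h' ▸ hx)
  obtain rfl : s = s' := hD.hT_inj (a2.trans b2.symm)
  rw [range2] at a1 b1
  rw [← a2, show s = 1 from funext fun a => by_contra fun c => by
    have := ho a (not_not.1 (mt (a1 a) c)) a (not_not.1 (mt (b1 a) c))
    rw [(R_ok D).diag] at this
    omega, map_one]

theorem ps_diag {G : Type} [Group G] {S S' : Subgroup G} (φ : MulAut G)
    (hc : ∀ g ∈ S, ∀ g' ∈ S, Commute g' (φ g)) (hm : ∀ g ∈ S, g * φ g ∈ S')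
    (hs : ∀ x ∈ S', ∃ g ∈ S, g * φ g = x) (h : PSimple S) : PSimple S' := by
  refine PSimple.surj (MonoidHom.mk' (fun g : S => (⟨g * φ g, hm g g.2⟩ : S')) fun g g' =>
    Subtype.ext ?_) (fun x => ?_) h
  · simp only [Subgroup.coe_mul, map_mul]
    exact (hc g g.2 g' g'.2).mul_mul_mul_comm _ _
  · obtain ⟨g, hg, e⟩ := hs x x.2
    exact ⟨⟨g, hg⟩, Subtype.ext e⟩

theorem four (a2 : BA2) (b2 : BB2) (g2 : BG2) (hk : Glob k) (hD : SC D) (o : Opw T ε π d)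
    (ho : Ort D.R π) {σ₀ : K ≃ₐ[k] K} (hp : ∀ σ, π σ = 1 ∨ π σ = π σ₀)
    (h2 : ∀ a, π σ₀ (π σ₀ a) = a) (h : i ≠ j) (e : D.A i j ≠ 0) (hi : π σ₀ i ≠ i)
    (hj : π σ₀ j ≠ j) : PSimple (FJ T ({i, j} ∪ {π σ₀ i, π σ₀ j})) := by
  have hR := R_ok D
  have hn : π σ₀ ≠ 1 := fun c => hj (by rw [c]; rfl)
  have e3 : D.A i j = -1 := simply hR (o.dg σ₀) hn h e
  have e4 : D.A j i = -1 := simply hR (o.dg σ₀) hn h.symm (mt hR.A_zero_comm.1 e)
  have e5 : D.A (π σ₀ i) i = 0 := ho σ₀ i hi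
  have e6 : D.A (π σ₀ j) j = 0 := ho σ₀ j hj
  have e5' : D.A i (π σ₀ i) = 0 := hR.A_zero_comm.1 e5
  have e6' : D.A j (π σ₀ j) = 0 := hR.A_zero_comm.1 e6
  have dg : ∀ a b, D.A (π σ₀ a) (π σ₀ b) = D.A a b := o.dg σ₀
  have n1 : π σ₀ i ≠ j := fun c => by rw [c, e4] at e5; omega
  have n2 : π σ₀ j ≠ i := fun c => by rw [c, e3] at e6; omega
  have n3 : π σ₀ i ≠ π σ₀ j := (π σ₀).injective.ne h
  have e7 : D.A i (π σ₀ j) = 0 := by
    by_contra c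
    have c1 : D.A i (π σ₀ j) = -1 := simply hR (o.dg σ₀) hn n2.symm c
    have c2 : D.A (π σ₀ j) i = -1 := simply hR (o.dg σ₀) hn n2 (mt hR.A_zero_comm.1 c)
    have c3 : D.A (π σ₀ i) j = -1 := by rw [← c1, ← dg i, h2]
    have c4 : D.A j (π σ₀ i) = -1 := by rw [← c2, ← dg _ i, h2]
    obtain ⟨a, ha⟩ := exists_pos (D := D) (γ := D.α i + D.α j + D.α (π σ₀ i) + D.α (π σ₀ j))
      fun c => by simpa [α, h, hi.symm, n2.symm] using congrFun c i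
    simp only [add_vecMul, Pi.add_apply, α_pr] at ha
    by_cases c : a = i ∨ a = j ∨ a = π σ₀ i ∨ a = π σ₀ j
    · rcases c with rfl | rfl | rfl | rfl <;> simp [*, Chev.diag] at ha
    · push Not at c
      simp [α, c] at ha
  have e8 : D.A j (π σ₀ i) = 0 := by rw [← dg, h2]; exact hR.A_zero_comm.1 e7
  have hJ : ∀ a ∈ ({i, j} : Set _), ∀ b ∈ ({π σ₀ i, π σ₀ j} : Set _), D.R.A a b = 0 := by
    rintro _ (rfl | rfl) _ (rfl | rfl)
    exacts [e5', e7, e8, e6']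
  have tr : ∀ {a b a' b' : D.grp K}, a ∈ LJ (GG D K) {i, j} → a' ∈ LJ (GG D K) {i, j} →
      b ∈ LJ (GG D K) {π σ₀ i, π σ₀ j} → b' ∈ LJ (GG D K) {π σ₀ i, π σ₀ j} → a * b = a' * b' →
      a = a' ∧ b = b' := fun {a b a' b'} ha ha' hb hb' c => by
    have : a'⁻¹ * a = b' * b⁻¹ := by rw [inv_mul_eq_iff_eq_mul, ← mul_assoc, ← c, mul_inv_cancel_right]
    obtain rfl := inv_mul_eq_one.1 (inf_triv hD h e n3 (dg i j ▸ e) hJ (mul_mem (inv_mem ha') ha)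
      (this ▸ mul_mem hb' (inv_mem hb)))
    exact ⟨rfl, mul_left_cancel c⟩
  obtain ⟨L, _, hL⟩ := exists_field (Γ := π.ker) (o.near.imp fun F hF =>
    ⟨hF.1, fun τ c => (hF.2 τ c).2⟩)
  have := sepCl L
  have hk1 : ∀ τ, π (rs L τ) = 1 := fun τ => (hL _).2 ⟨τ, rfl⟩
  have ps := two a2 b2 g2 (Glob.fin hk) hD (opw_res o L) h e
    (fun σ => DFunLike.congr_fun (hk1 σ) i) (fun σ => DFunLike.congr_fun (hk1 σ) j) (Or.inr ⟨e3, e4⟩)
  have fx : ∀ g ∈ FJ (P011UC.res T L) {i, j}, ∀ σ, π σ = 1 → T.a σ g = g := fun g hg σ c => by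
    obtain ⟨τ, rfl⟩ := (hL σ).1 c
    exact hg.1 τ
  have m1 : ∀ {g}, g ∈ LJ (GG D K) {i, j} → T.a σ₀ g ∈ LJ (GG D K) {π σ₀ i, π σ₀ j} :=
    a_LJ o σ₀ (by rintro _ (rfl | rfl) <;> simp)
  have m2 : ∀ {g}, g ∈ LJ (GG D K) {π σ₀ i, π σ₀ j} → T.a σ₀ g ∈ LJ (GG D K) {i, j} :=
    a_LJ o σ₀ (by rintro _ (rfl | rfl) <;> simp [h2])
  have cm := fun {g g' : D.grp K} => comm_LJ (g := g) (g' := g') GG_ok hR hJ
  have sq : π σ₀ * π σ₀ = 1 := Equiv.ext h2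
  refine ps_diag (S := FJ (P011UC.res T L) {i, j}) (T.a σ₀)
    (fun g hg g' hg' => cm hg'.2 (m1 hg.2)) (fun g hg => ⟨fun σ => ?_,
    mul_mem (LJ_mono Set.subset_union_left hg.2) (LJ_mono Set.subset_union_right (m1 hg.2))⟩) ?_ ps
  · rw [map_mul, ← MulAut.mul_apply, ← map_mul]
    rcases hp σ with c | c
    · rw [fx g hg σ c, show σ * σ₀ = σ₀ * (σ₀⁻¹ * σ * σ₀) by group, map_mul, MulAut.mul_apply,
        fx g hg _ (by simp [c])]
    · rw [fx g hg (σ * σ₀) (by rw [map_mul, c, sq]), show σ = σ₀ * (σ₀⁻¹ * σ) by group, map_mul,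
        MulAut.mul_apply, fx g hg _ (by simp [c]), (cm hg.2 (m1 hg.2)).eq]
  · rintro x ⟨h3, h4⟩
    obtain ⟨a, ha, b, hb, rfl⟩ := LJ_split GG_ok hR hJ h4
    have h5 : ∀ σ, T.a σ a * T.a σ b = a * b := fun σ => by rw [← map_mul, h3 σ]
    have h6 : ∀ τ, T.a (rs L τ) a = a := fun τ =>
      (tr (a_LJ o _ (fun _ c => by rwa [hk1]) ha) ha (a_LJ o _ (fun _ c => by rwa [hk1]) hb) hb
        (h5 _)).1
    have h7 : T.a σ₀ a = b := (tr (m2 hb) ha (m1 ha) hb ((cm (m2 hb) (m1 ha)).eq.trans (h5 _))).2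
    exact ⟨a, ⟨h6, ha⟩, congrArg (a * ·) h7⟩

theorem rk2 (a2 : BA2) (a3 : BA3) (b2 : BB2) (g2 : BG2) : RK2 := by
  intro k K _ _ _ _ D hk hD T ε π d o _ ho hε h2 i j h e
  obtain ⟨σ₀, hp⟩ : ∃ σ₀, ∀ σ, π σ = 1 ∨ π σ = π σ₀ := by
    by_cases c : ∃ σ₀, π σ₀ ≠ 1
    · exact c.imp fun σ₀ c σ => (h2 σ σ₀).imp_right fun e => e.resolve_left c
    · exact ⟨1, fun σ => Or.inl (not_not.1 fun e => c ⟨σ, e⟩)⟩
  have sq : ∀ a, π σ₀ (π σ₀ a) = a := fun a => by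
    rcases hp (σ₀ * σ₀) with c | c <;> rw [map_mul] at c
    · exact DFunLike.congr_fun c a
    · rw [mul_eq_left.1 c]
      rfl
  have ob : ∀ a, orb π a = {a, π σ₀ a} := fun a => Set.ext fun b => ⟨by
    rintro ⟨σ, rfl⟩
    rcases hp σ with c | c <;> simp [c], by
    rintro (rfl | rfl)
    exacts [⟨1, by simp⟩, ⟨σ₀, rfl⟩]⟩
  have fx : ∀ {a}, π σ₀ a = a → ∀ σ, π σ a = a := fun c σ => by
    rcases hp σ with c' | c' <;> simp [c, c']
  rw [ob, ob]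
  by_cases hi : π σ₀ i = i <;> by_cases hj : π σ₀ j = j
  · convert two a2 b2 g2 hk hD o h e (fx hi) (fx hj) (Or.inl hε) <;> simp [hi, hj, Set.pair_comm]
  · convert three a3 hk hD o ho hp sq h e hi hj <;> ext <;> simp [hi] <;> tauto
  · convert three a3 hk hD o ho hp sq h.symm (mt (R_ok D).A_zero_comm.1 e) hj hi <;>
      ext <;> simp [hj] <;> tauto
  · rw [show ({i, π σ₀ i} ∪ {j, π σ₀ j} : Set _) = {i, j} ∪ {π σ₀ i, π σ₀ j} by ext; simp; tauto]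
    exact four a2 b2 g2 hk hD o ho hp sq h e hi hj

end Vale.Agent.P011UGR1
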