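import Vale.Agent.P011UGR1.Jor
import Vale.Agent.P011UX2.Exp
import Vale.Agent.P011UGA.IF3

/-!
The algebraic hull of an element of the Lie algebra of a Chevalley group.
-/

set_option autoImplicit false
set_option linter.all false

namespace Vale.Agent.P011UGR1

open Matrix Module Vale.Agent.P011L Vale.Agent.P183CH Vale.Agent.P011U Vale.Agent.P011UGA

section

variable {K : Type} [Field K] {n : ℕ} {X Y S : Matrix (Fin n) (Fin n) K} {μ : K} {φ : K → K}

theorem ge_mul (hY : Y ∈ Ge X μ) {l : K} {v : Fin n → K} (hv : v ∈ gE X l) :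
    Y *ᵥ v ∈ gE X (μ + l) :=
  bil (mulVecBilin K K) (fun Y v => by simp [adM, sub_mulVec]) Y hY v hv

theorem ge_zero (h : Commute Y X) : Y ∈ Ge X 0 := ge_of (by simp [adM, h.eq])

variable [IsAlgClosed K]

theorem ex_mx (X : Matrix (Fin n) (Fin n) K) (φ : K → K) :
    ∃ S : Matrix (Fin n) (Fin n) K, ∀ μ, ∀ v ∈ gE X μ, S *ᵥ v = φ μ • v :=
  let ⟨s, h⟩ := ex_fn X.mulVecLin φ
  ⟨LinearMap.toMatrix' s, fun μ v hv => (LinearMap.toMatrix'_mulVec s v).trans (h μ v hv)⟩

theorem mx_ext (X : Matrix (Fin n) (Fin n) K) {A B : Matrix (Fin n) (Fin n) K}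
    (h : ∀ μ, ∀ v ∈ gE X μ, A *ᵥ v = B *ᵥ v) : A = B :=
  toLin'.injective (ge_ext X.mulVecLin h)

variable [CharZero K]

theorem exp_ad (h : IsNilpotent X) : IsNilpotent (adM X) ∧
    ∀ Y, IsNilpotent.exp X * Y * IsNilpotent.exp (-X) = IsNilpotent.exp (adM X) Y := by
  have a : IsNilpotent (LinearMap.mulLeft K X) := h.map (Algebra.lmul K _)
  obtain ⟨m, hm⟩ := h.neg
  have b : LinearMap.mulRight K (-X) ^ m = 0 := by rw [LinearMap.pow_mulRight, hm]; ext1; simp
  have c := LinearMap.commute_mulLeft_right (R := K) X (-X)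
  have e : adM X = LinearMap.mulLeft K X + LinearMap.mulRight K (-X) := by
    ext1; simp [adM, sub_eq_add_neg]
  refine ⟨e ▸ c.isNilpotent_add a ⟨m, b⟩, fun Y => ?_⟩
  rw [e, IsNilpotent.exp_add_of_commute c a ⟨m, b⟩, End.mul_apply, IsNilpotent.exp_eq_sum hm,
    IsNilpotent.exp_eq_sum b, mul_assoc]
  refine Eq.trans ?_ (DFunLike.congr_fun (IsNilpotent.map_exp h (Algebra.lmul K _)) _)
  simp [Finset.mul_sum, LinearMap.pow_mulRight]

end

theorem hul1 : HUL1 := fun D hD K _ _ _ X hX χ => by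
  obtain ⟨S, h⟩ := ex_mx X fun μ => χ (.ofAdd μ)
  obtain ⟨S', h'⟩ := ex_mx X fun μ => ((χ (.ofAdd μ))⁻¹ : Kˣ)
  have e : S * S' = 1 := mx_ext X fun μ v hv => by
    rw [← mulVec_mulVec, h' μ v hv, mulVec_smul, h μ v hv, smul_smul, one_mulVec]
    simp
  have k : ∀ μ, ∀ Y ∈ Ge X μ, S * Y = (χ (.ofAdd μ) : K) • (Y * S) := fun μ Y hY =>
    mx_ext X fun l v hv => by
      rw [smul_mulVec, ← mulVec_mulVec, ← mulVec_mulVec, h _ _ (ge_mul hY hv), h l v hv,
        mulVec_smul, smul_smul, ofAdd_add, map_mul, Units.val_mul]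
  refine ⟨⟨⟨S, S', e, mul_eq_one_comm.1 e⟩, hull_mul (P011UX2.cl_grp hD) (P011UX2.gg_le hX) χ h⟩,
    fun M c => ?_, fun μ Y hY => ?_⟩
  · show M * S = S * M
    simpa using (k 0 M (ge_zero c)).symm
  · show S * Y * S' = _
    rw [k μ Y hY, smul_mul_assoc, mul_assoc, e, mul_one]

theorem hul2 : HUL2 := fun D hD K _ _ _ X hX => by
  obtain ⟨S, h⟩ := ex_mx X id
  have h1 : ∀ μ, ∀ v ∈ gE X μ, (X - S) *ᵥ v = X *ᵥ v - μ • v := fun μ v hv => by
    rw [sub_mulVec, h μ v hv, id]
  have k : ∀ μ, ∀ Y ∈ Ge X μ, adM (X - S) Y = adM X Y - μ • Y := fun μ Y hY => by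
    have : S * Y = μ • Y + Y * S := mx_ext X fun l v hv => by
      rw [add_mulVec, smul_mulVec, ← mulVec_mulVec, ← mulVec_mulVec, h _ _ (ge_mul hY hv),
        h l v hv, mulVec_smul, id, id, add_smul]
    simp only [adM, LinearMap.sub_apply, LinearMap.mulLeft_apply, LinearMap.mulRight_apply,
      sub_mul, mul_sub, this]
    abel
  have h2 := hull_nil (P011UX2.gg_le hX) h1
  generalize X - S = N at h1 k h2
  have h3 : IsNilpotent N := (IsNilpotent.map_iff toLinAlgEquiv'.injective).1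
    (End.isNilpotent_iff_of_finite.2 fun v => by
      show ∃ m, (N.mulVecLin ^ m) v = 0
      simpa using (End.mem_maxGenEigenspace _ _ _).1 (ge_top X.mulVecLin (P := (· ∈ gE N 0))
        (fun μ => ge_ind (zero_mem _) fun v hv c => ge_of (by simpa [h1 μ v hv] using c))
        (zero_mem _) (fun _ _ => add_mem) v))
  have h4 : ∀ c : K, IsNilpotent (c • N) := fun c => h3.smul c
  choose y hy e using fun c : K => (P011UH.cl D hD K K _).1
    (P011UX2.exp_van (Submodule.smul_mem _ c h2) (h4 c))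
  let u : Multiplicative K →* D.grp K := MonoidHom.mk' (fun c => ⟨y c.toAdd, hy _⟩) fun a b =>
    Subtype.ext (Units.ext (by
      show (y _).1 = (y _).1 * (y _).1
      rw [e, e, e, toAdd_mul, add_smul,
        IsNilpotent.exp_add_of_commute ((Commute.refl N).smul_left _ |>.smul_right _) (h4 _) (h4 _)]))
  obtain ⟨b, hb⟩ := (exp_ad h3).1
  refine ⟨N, k, b + 2, u, by omega, fun c => ⟨fun M m => ?_, fun Y => ?_⟩⟩
  · have : Commute M N := by
      have := k 0 M (ge_zero m)
      simp only [adM, LinearMap.sub_apply, LinearMap.mulLeft_apply, LinearMap.mulRight_apply,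
        m.eq, sub_self, zero_smul, sub_eq_zero] at this
      exact this.symm
    show Commute M (y c).1
    obtain ⟨j, hj⟩ := h4 c
    rw [e, IsNilpotent.exp_eq_sum hj]
    exact Commute.sum_right _ _ _ fun i _ => ((this.smul_right c).pow_right i).smul_right _
  · have a : adM (c • N) = c • adM N := by ext1; simp [adM, smul_sub]
    show (y c).1 * Y * (u (.ofAdd c))⁻¹.1.1 = _
    rw [← map_inv]
    show (y c).1 * Y * (y (-c)).1 = _
    rw [e, e, neg_smul, (exp_ad (h4 c)).2, a, IsNilpotent.exp_eq_sum (k := b + 2) (by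
      rw [smul_pow, pow_add (adM N), hb, zero_mul, smul_zero]), LinearMap.sum_apply]
    refine Finset.sum_congr rfl fun i _ => ?_
    rw [smul_pow, LinearMap.smul_apply, LinearMap.smul_apply, ← algebraMap_smul K, smul_smul]
    simp [div_eq_inv_mul]

end Vale.Agent.P011UGR1
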