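import Vale.Agent.P011UX.Cur
import Mathlib.LinearAlgebra.Eigenspace.Triangularizable
import Mathlib.Algebra.DirectSum.Module

/-!
Generalised eigenspaces and the algebraic hull of an element of the Lie algebra.
-/

set_option autoImplicit false
set_option linter.all false

namespace Vale.Agent.P011UGR1

open Matrix Module Module.End Vale.Agent.P011L Vale.Agent.P011UX

section

variable {K U V W : Type} [Field K] [AddCommGroup U] [Module K U] [AddCommGroup V] [Module K V]
  [AddCommGroup W] [Module K W]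

theorem ge_ind {f : End K V} {μ : K} {P : V → Prop} (h0 : P 0)
    (h : ∀ v ∈ f.maxGenEigenspace μ, P (f v - μ • v) → P v) : ∀ v ∈ f.maxGenEigenspace μ, P v := by
  intro v hv
  obtain ⟨k, hk⟩ := (mem_maxGenEigenspace f μ v).1 hv
  induction k generalizing v with
  | zero => exact (show v = 0 from hk) ▸ h0
  | succ k ih =>
    rw [pow_succ] at hk
    exact h v hv (ih _ ((mem_maxGenEigenspace f μ _).2 ⟨k, hk⟩) hk)

theorem ge_of {f : End K V} {μ : K} {v : V} (h : f v - μ • v ∈ f.maxGenEigenspace μ) :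
    v ∈ f.maxGenEigenspace μ := by
  obtain ⟨k, hk⟩ := (mem_maxGenEigenspace f μ _).1 h
  exact (mem_maxGenEigenspace f μ _).2 ⟨k + 1, by rw [pow_succ]; exact hk⟩

theorem ge_map {f : End K U} {g : End K V} (φ : U →ₗ[K] V) (e : ∀ u, φ (f u) = g (φ u)) {μ : K} :
    ∀ u ∈ f.maxGenEigenspace μ, φ u ∈ g.maxGenEigenspace μ :=
  ge_ind (by simp) fun u _ h => ge_of (by simpa [e] using h)

theorem bil (B : U →ₗ[K] V →ₗ[K] W) {f : End K U} {g : End K V} {h : End K W}
    (e : ∀ u v, h (B u v) = B (f u) v + B u (g v)) {μ l : K} :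
    ∀ u ∈ f.maxGenEigenspace μ, ∀ v ∈ g.maxGenEigenspace l, B u v ∈ h.maxGenEigenspace (μ + l) :=
  ge_ind (by simp) fun u _ a => ge_ind (by simp) fun v hv b => ge_of (by
    convert add_mem (a v hv) b using 1
    simp only [e, map_sub, map_smul, LinearMap.sub_apply, LinearMap.smul_apply, add_smul]
    abel)

theorem stab {D ρ : End K V} (R : K → End K V)
    (hA : ∀ p, p ∈ ⨆ μ, D.maxGenEigenspace μ ⊓ LinearMap.eqLocus ρ (R μ)) (I : Submodule K V)
    (hI : ∀ p ∈ I, D p ∈ I) (hR : ∀ μ, ∀ p ∈ I, R μ p ∈ I) : ∀ p ∈ I, ρ p ∈ I := by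
  intro p hp
  obtain ⟨f, hf, rfl⟩ := (Submodule.mem_iSup_iff_exists_finsupp _ _).1 (hA p)
  have h := (iSupIndep_iff_finsetSum_eq_zero_imp_eq_zero _).1
    (independent_maxGenEigenspace (I.mapQ I D hI)) f.support (fun μ => I.mkQ (f μ))
    (fun μ _ => ge_map I.mkQ (fun _ => rfl) _ (hf μ).1) (by
      rw [← map_sum]
      exact (Submodule.Quotient.mk_eq_zero I).2 hp)
  rw [Finsupp.sum, map_sum]
  exact I.sum_mem fun μ m => (hf μ).2.symm ▸ hR μ _ ((Submodule.Quotient.mk_eq_zero I).1 (h μ m))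

variable [IsAlgClosed K] [FiniteDimensional K V]

theorem ge_top (f : End K V) {P : V → Prop} (h : ∀ μ, ∀ v ∈ f.maxGenEigenspace μ, P v) (h0 : P 0)
    (h1 : ∀ v w, P v → P w → P (v + w)) (v : V) : P v :=
  Submodule.iSup_induction _ (motive := P) (f.iSup_maxGenEigenspace_eq_top ▸ Submodule.mem_top)
    h h0 h1

theorem ge_ext (f : End K V) {s t : V →ₗ[K] W} (h : ∀ μ, ∀ v ∈ f.maxGenEigenspace μ, s v = t v) :
    s = t :=
  LinearMap.ext (ge_top f h (by simp) fun v w a b => by rw [map_add, map_add, a, b])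

theorem ex_fn (f : End K V) (φ : K → K) :
    ∃ s : End K V, ∀ μ, ∀ v ∈ f.maxGenEigenspace μ, s v = φ μ • v := by
  classical
  have h := DirectSum.isInternal_submodule_of_iSupIndep_of_iSup_eq_top
    f.independent_maxGenEigenspace f.iSup_maxGenEigenspace_eq_top
  let e := LinearEquiv.ofBijective (DirectSum.coeLinearMap fun μ => f.maxGenEigenspace μ) h
  refine ⟨DirectSum.toModule K K V (fun μ => φ μ • (f.maxGenEigenspace μ).subtype) ∘ₗ e.symm,
    fun μ v hv => ?_⟩
  have : e.symm v = DirectSum.lof K K (fun μ => f.maxGenEigenspace μ) μ ⟨v, hv⟩ :=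
    e.symm_apply_eq.2 (DirectSum.coeLinearMap_lof _ μ ⟨v, hv⟩).symm
  simp [this]

end

variable {K J : Type} [Field K] [Fintype J] [DecidableEq J]

/-- the generalised eigenspaces of a matrix -/
abbrev gE (X : Matrix J J K) (μ : K) : Submodule K (J → K) := maxGenEigenspace X.mulVecLin μ

/-- the generic matrix times `X` -/
noncomputable def gy (X : Matrix J J K) (e : J × J) : MvPolynomial (J × J) K :=
  ∑ c, X c e.2 • MvPolynomial.X (e.1, c)

/-- the left invariant derivations -/
noncomputable def DX (X : Matrix J J K) :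
    Derivation K (MvPolynomial (J × J) K) (MvPolynomial (J × J) K) :=
  MvPolynomial.mkDerivation K (gy X)

theorem ev_gy (X M : Matrix J J K) (e : J × J) : ev M (gy X e) = (M * X) e.1 e.2 := by
  simp [gy, Matrix.mul_apply, mul_comm]

theorem ev_DX (X M : Matrix J J K) (p : MvPolynomial (J × J) K) :
    ev M (DX X p) = dv p M (M * X) := by
  induction p using MvPolynomial.induction_on with
  | C a => simp [dv]
  | add p q a b => simp only [map_add, a, b, dv, add_mul, Finset.sum_add_distrib]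
  | mul_X p e a =>
    rw [Derivation.leibniz, map_add, smul_eq_mul, smul_eq_mul, map_mul, map_mul, a, DX,
      MvPolynomial.mkDerivation_X, ev_gy]
    simp [dv, add_mul, Finset.sum_add_distrib, MvPolynomial.pderiv_X, Pi.single_apply,
      Finset.mul_sum, mul_assoc, apply_ite]

/-- the linear forms -/
noncomputable def ell (a : J) : (J → K) →ₗ[K] MvPolynomial (J × J) K :=
  Fintype.linearCombination K fun b => MvPolynomial.X (a, b)

theorem ell_mul (X : Matrix J J K) (a : J) (v : J → K) :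
    ∑ b, v b • gy X (a, b) = ell a (X *ᵥ v) := by
  simp only [ell, Fintype.linearCombination_apply, mulVec, dotProduct, gy, Finset.smul_sum,
    Finset.sum_smul, smul_smul, mul_comm]
  exact Finset.sum_comm

theorem DX_ell (X : Matrix J J K) (a : J) (v : J → K) : DX X (ell a v) = ell a (X *ᵥ v) := by
  rw [← ell_mul]
  simp [ell, Fintype.linearCombination_apply, DX, MvPolynomial.mkDerivation_X]

/-- the ideal of the group -/
def vI (E : Subgroup (GL J K)) : Submodule K (MvPolynomial (J × J) K) where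
  carrier := {p | Van K E p}
  add_mem' := fun a b g e => by rw [map_add, a g e, b g e, add_zero]
  zero_mem' := fun g e => map_zero _
  smul_mem' := fun c p a g e => by rw [map_smul, a g e, smul_zero]

theorem LE_iff {E : Subgroup (GL J K)} {X : Matrix J J K} :
    X ∈ P011UX.LE E ↔ ∀ p ∈ vI E, DX X p ∈ vI E :=
  forall₄_congr fun p _ g _ => by rw [← ev_DX]

variable [IsAlgClosed K] {E : Subgroup (GL J K)} {X : Matrix J J K}

theorem hull (hX : X ∈ P011UX.LE E) {ρ : End K (MvPolynomial (J × J) K)}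
    (R : K → End K (MvPolynomial (J × J) K)) (h1 : ρ 1 = R 0 1)
    (h2 : ∀ μ l p q, ρ p = R μ p → ρ q = R l q → ρ (p * q) = R (μ + l) (p * q))
    (h3 : ∀ μ a, ∀ v ∈ gE X μ, ρ (ell a v) = R μ (ell a v)) (h4 : ∀ μ, ∀ p ∈ vI E, R μ p ∈ vI E) :
    ∀ p ∈ vI E, ρ p ∈ vI E := by
  refine stab (D := (DX X).toLinearMap) R (fun p => ?_) _ (LE_iff.1 hX) h4
  set A := fun μ => maxGenEigenspace (DX X).toLinearMap μ ⊓ LinearMap.eqLocus ρ (R μ)
  induction p using MvPolynomial.induction_on with
  | C c =>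
    rw [← mul_one (MvPolynomial.C c), ← MvPolynomial.smul_eq_C_mul]
    exact Submodule.smul_mem _ _ (Submodule.mem_iSup_of_mem 0 ⟨ge_of (by simp), h1⟩)
  | add p q a b => exact add_mem a b
  | mul_X p e a =>
    have : MvPolynomial.X e = ell e.1 (Pi.single e.2 (1 : K)) := by simp [ell]
    rw [this]
    refine ge_top X.mulVecLin (P := fun v => p * ell e.1 v ∈ iSup A) (fun l v hv => ?_) (by simp)
      (fun v w a b => by rw [map_add, mul_add]; exact add_mem a b) _
    refine Submodule.iSup_induction A (motive := fun p => p * ell e.1 v ∈ iSup A) a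
      (fun μ p hp => Submodule.mem_iSup_of_mem (μ + l) ⟨?_, h2 _ _ _ _ hp.2 (h3 l _ v hv)⟩)
      (by simp) fun p q a b => by rw [add_mul]; exact add_mem a b
    exact bil (LinearMap.mul K _) (h := (DX X).toLinearMap)
      (fun u v => by simp [add_comm, mul_comm]) _ hp.1 _
      (ge_map (ell e.1) (fun u => (DX_ell X _ u).symm) v hv)

theorem hull_mul (hE : Cl E) (hX : X ∈ P011UX.LE E) (χ : Multiplicative K →* Kˣ) {t : GL J K}
    (ht : ∀ μ, ∀ v ∈ gE X μ, t.1 *ᵥ v = (χ (.ofAdd μ) : K) • v) : t ∈ E := hE t fun p hp => by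
  have := hull hX (ρ := (MvPolynomial.aeval (gy t.1)).toLinearMap)
    (fun μ => (χ (.ofAdd μ) : K) • 1) (by simp) (fun μ l p q a b => by
      simp only [AlgHom.toLinearMap_apply, LinearMap.smul_apply, End.one_apply] at a b ⊢
      rw [map_mul, a, b, ofAdd_add, map_mul, Units.val_mul, smul_mul_smul_comm])
    (fun μ a v hv => by
      refine Eq.trans ?_ ((ell_mul t.1 a v).trans (by simp [ht μ v hv]))
      simp [ell, Fintype.linearCombination_apply])
    (fun μ p hp => Submodule.smul_mem _ _ hp) p hp 1 (one_mem _)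
  refine Eq.trans ?_ this
  refine DFunLike.congr_fun (MvPolynomial.algHom_ext (g := (ev (1 : GL J K).1).comp
    (MvPolynomial.aeval (gy t.1))) fun e => ?_) p
  rw [AlgHom.comp_apply, MvPolynomial.aeval_X, MvPolynomial.aeval_X, ev_gy, Units.val_one, one_mul]

theorem hull_nil (hX : X ∈ P011UX.LE E) {N : Matrix J J K}
    (hN : ∀ μ, ∀ v ∈ gE X μ, N *ᵥ v = X *ᵥ v - μ • v) : N ∈ P011UX.LE E :=
  LE_iff.2 (hull hX (ρ := (DX N).toLinearMap) (fun μ => (DX X).toLinearMap - μ • 1) (by simp)
    (fun μ l p q a b => by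
      simp only [Derivation.coeFn_coe, LinearMap.sub_apply, LinearMap.smul_apply, End.one_apply,
        Derivation.leibniz, smul_eq_mul] at a b ⊢
      simp only [a, b, MvPolynomial.smul_eq_C_mul, map_add]
      ring)
    (fun μ a v hv => by simp [DX_ell, hN μ v hv])
    fun μ p hp => sub_mem (LE_iff.1 hX p hp) (Submodule.smul_mem _ _ hp))

end Vale.Agent.P011UGR1
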