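import Vale.Agent.P011UBL.Main
import Vale.Agent.P011UD7.Kit
import Vale.Agent.P011UQ.Tz

/-!
The end of the quadratic step.
-/

set_option autoImplicit false
set_option linter.all false

namespace Vale.Agent.P011UGR1

open Matrix Vale.Agent.P011L Vale.Agent.P183CH Vale.Agent.P183CH.Chev Vale.Agent.P011U
  Vale.Agent.P011UHB
open Vale.Agent.P011UC (pa ch)

/-- the subsystem of rank one of a root -/
def r2 {R : RS} (γ : R.Q) (i j : Fin 2) : R.Q := ![γ, 0] i - ![γ, 0] j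

theorem r2_or {R : RS} (γ : R.Q) {i j : Fin 2} (h : i ≠ j) : r2 γ i j = γ ∨ r2 γ i j = -γ := by
  fin_cases i <;> fin_cases j <;> simp_all [r2]

theorem as_r2 {R : RS} (hR : R.Ok) {γ : R.Q} (hγ : γ ∈ R.Φ) : As R (r2 γ) := by
  have m : ∀ i j, i ≠ j → r2 γ i j ∈ R.Φ := fun i j h => by
    rcases r2_or γ h with e | e <;> rw [e]
    exacts [hγ, hR.neg_mem hγ]
  refine ⟨m, fun i j m => by simp [r2], fun i j i' j' h h' => ?_, fun i j i' j' a b h h' c ha hb e => ?_⟩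
  · rcases r2_or γ h with e | e <;> rcases r2_or γ h' with e' | e' <;>
      simp [e, e', P011UD7.B_Bl hR]
  · obtain ⟨rfl, rfl⟩ : i' = i ∧ j' = j := by omega
    have n := (hR.sign _ (m _ _ h)).1
    rcases hR.reduced e (m _ _ h) (a := 1) (b := a + b) one_ne_zero (by simp [add_smul]) with c | c
    · have : ((a : ℤ) + b - 1) • r2 γ i' j' = 0 := by simpa [add_smul, sub_smul, sub_eq_zero] using c
      rcases smul_eq_zero.1 this with c | c
      exacts [by omega, (n c).elim]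
    · have : ((a : ℤ) + b + 1) • r2 γ i' j' = 0 := by
        simpa [add_smul, ← eq_neg_iff_add_eq_zero] using c
      rcases smul_eq_zero.1 this with c | c
      exacts [by omega, (n c).elim]

theorem rt_r2 {R : RS} {γ : R.Q} {w : R.Aut} (h : w γ = -γ) : Rt R w (r2 γ) 1 :=
  ⟨one_ne_zero, fun i j => by fin_cases i <;> fin_cases j <;> simp [r2, h]⟩

theorem std_fix {D : Chev} {K : Type} [Field K] {ψ : D.grp K →* D.grp K} {σ : K →+* K}
    {π : Equiv.Perm (Fin D.R.r)} (h : Std (GG D K) ψ σ 1 1 π) (h3 : π ^ 3 = 1) {γ : D.R.Q}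
    (hγ : γ ∈ D.R.Φ) (e : pa D.R π γ = γ) (u : K) :
    ψ ((GG D K).x γ u) = (GG D K).x γ (σ u) := by
  obtain ⟨ε, h1⟩ := P011UBL.std_nm GG_ok (R_ok D) h γ hγ
  have h2 : ∀ u, ψ ((GG D K).x γ u) = (GG D K).x γ (((ε : ℤ) : K) * σ u) := fun u => by
    simpa [e, ch] using (h1 u).1
  have p : ∀ i, π (π (π i)) = i := fun i => DFunLike.congr_fun h3 i
  have h4 : ψ.comp (ψ.comp ψ) = fm D (σ.comp (σ.comp σ)) :=
    MonoidHom.eq_of_eqOn_dense (GG_ok (D := D) (k := K)).gen (by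
      rintro _ ⟨i, t, rfl | rfl⟩ <;> simp [fm_x, h.2, p])
  have h5 := DFunLike.congr_fun h4 ((GG D K).x γ 1)
  simp only [MonoidHom.comp_apply, h2, fm_x, map_one, mul_one, map_mul, map_intCast] at h5
  have h6 := GG_ok.x_inj (R_ok D) hγ h5
  rw [P011UBL.sg_sq, mul_one] at h6
  rw [h2, h6, one_mul]

theorem op2 (hr : HR) (mov : MOV) : OP2 := by
  intro k K _ _ _ _ D hk hD T hn L θ π h2 ⟨hθ, hπ, hs, χ, hχ⟩ hc
  have hR := R_ok D
  have : Algebra.IsQuadraticExtension k L := { finrank_eq_two' := h2 }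
  have r : 2 ≤ D.R.r := by
    rcases hc with ⟨c, -⟩ | ⟨c, -⟩
    · by_contra c'
      have e : D.R.r = 1 := by have := hR.pos; omega
      exact c ⟨1, finCongr e, fun i j => by
        obtain rfl : i = j := Fin.ext (by omega)
        rw [hR.diag]
        simp [CartanMatrix.A]⟩
    · exact c
  obtain ⟨i, β, hβ, h1, h3, h4⟩ := hr _ hR r
  have h5 : ∀ σ, Fx (L : Set K) σ → ∃ π', Std (GG D K) (T.a σ) σ 1 1 π' ∧ π' ^ 3 = 1 ∧ π' i = i :=
    fun σ hσ => by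
    obtain ⟨π', c⟩ := hs σ hσ
    rcases hc with ⟨c1, c2⟩ | ⟨-, c2, -⟩
    · obtain ⟨g, d, p, c3, c4⟩ := c2 σ hσ
      obtain rfl := (P011UQ.std_uniq GG_ok hR c c3 (map_one σ)).1
      exact ⟨_, c, c4, h4 c1 _ c.1⟩
    · obtain ⟨g, d, c3⟩ := c2 σ hσ
      obtain rfl := (P011UQ.std_uniq GG_ok hR c c3 (map_one σ)).1
      exact ⟨_, c, one_pow _, rfl⟩
  have h6 : π i = i := by
    rcases hc with ⟨c1, -⟩ | ⟨-, -, rfl⟩
    exacts [h4 c1 _ hπ, rfl]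
  let S : Set D.R.Q := {γ | γ ∈ D.R.Φ ∧ pa D.R π γ = γ ∧ ∀ π', Dg D.R π' → π' i = i →
    pa D.R π' γ = γ}
  have ng : ∀ γ ∈ S, -γ ∈ S := fun γ c => ⟨hR.neg_mem c.1, by rw [map_neg, c.2.1],
    fun p c1 c2 => by rw [map_neg, c.2.2 p c1 c2]⟩
  have w : ∀ γ ∈ S, (LinearEquiv.neg ℤ * pa D.R π : D.R.Aut) γ = -γ := fun γ c =>
    congrArg Neg.neg c.2.1
  have m : ∀ γ ∈ S, ∀ i j, i ≠ j → r2 γ i j ∈ S := fun γ c i j h => by
    rcases r2_or γ h with e | e <;> rw [e]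
    exacts [c, ng γ c]
  have sa : D.R.α i ∈ S := ⟨hR.simple i, by rw [P011UD7.pa_α, h6],
    fun p _ c => by rw [P011UD7.pa_α, c]⟩
  have sb : β ∈ S := ⟨hβ, h3 π hπ, fun p c _ => h3 p c⟩
  refine mov k K D hk hD T hn 2 L θ _ χ (r2 (D.R.α i)) 1 Nat.prime_two h2 inferInstance hθ
    (as_r2 hR sa.1) (rt_r2 (w _ sa)) S (fun γ c => c.1) (fun γ c => (w γ c).symm ▸ ng γ c) (m _ sa)
    (fun γ c σ hσ u => ?_) (fun γ c => hχ γ c.1) (Or.inr ⟨r2 β, 1, ![1, 0], as_r2 hR hβ,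
      rt_r2 (w _ sb), m _ sb, fun a b => ?_, by simp⟩)
  · obtain ⟨p, c1, c2, c3⟩ := h5 σ hσ
    exact std_fix (ψ := (T.a σ).toMonoidHom) (σ := (σ : K →+* K)) c1 c2 c.1 (c.2.2 p c1.1 c3) u
  · unfold Cp at h1 ⊢
    fin_cases a <;> fin_cases b <;> simp_all [r2, P011UD7.B_Bl hR]

end Vale.Agent.P011UGR1
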